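import Vale.Agent.P287D.Cb.Row
import Vale.Agent.P287D.Va.Fld
import Vale.Agent.P287D.Pb.Abh
import Vale.Agent.P287D.Gf.Rs

/-!
# P287D, row LOC: regular forms of top degree along maps of fields
-/

set_option linter.all false

open Set

noncomputable section

namespace Vale.Agent.P287D.Lc

variable {K K' : Type} [Field K] [Algebra ℂ K] [Field K'] [Algebra ℂ K'] {n : ℕ}

variable (K) in
/-- there is a regular form of top degree -/
def NU (n : ℕ) : Prop := ∃ w : K, w ≠ 0 ∧ 0 ≤ cn K n + dv w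

theorem NU.of_pg (h : pg K n ≠ 0) : NU K n := by
  by_contra k
  refine h ?_
  have e : H0 (cn K n) = ⊥ := eq_bot_iff.2 fun w hw => by_contra fun h0 =>
    k ⟨w, h0, add_comm (dv w) _ ▸ (mem_H0.1 hw).resolve_left h0⟩
  rw [pg, h0, e, finrank_bot]

theorem NU.ne_bot (h : NU K n) : H0 (cn K n) ≠ ⊥ := fun e =>
  let ⟨w, h0, k⟩ := h
  h0 ((Submodule.mem_bot ℂ).1 (e ▸ mem_H0.2 (Or.inr (add_comm (cn K n) _ ▸ k))))

theorem NU.eff (h : NU K n) : Eff (cn K n) :=
  let ⟨w, h0, k⟩ := h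
  Sec.eff (f := w) (Or.inr (add_comm (cn K n) _ ▸ k)) h0

theorem NU.pg_ne (md : MOD) (hK : FF K (n + 1)) (h : NU K (n + 1)) : pg K (n + 1) ≠ 0 := by
  have := md.fin n K hK _ (md.isb n K hK).2.1
  have := Submodule.nontrivial_iff_ne_bot.2 h.ne_bot
  exact Module.finrank_pos.ne'

/-- regular forms pull back along finite maps -/
theorem NU.map (h : NU K n) (hK : FF K n) (hK' : FF K' n) (φ : K →ₐ[ℂ] K') : NU K' n := by
  obtain ⟨w, w0, hw⟩ := h
  obtain ⟨y, hy, -⟩ := id hK
  have c : ∀ c, (φ : K →+* K') (algebraMap ℂ K c) = algebraMap ℂ K' c := φ.commutes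
  obtain ⟨g, g0, hg⟩ := Cb.cn_kap hK hy
  obtain ⟨f, f0, hf⟩ := Cb.kap_cn hK' (Cb.ind_ah c hy)
  have x0 : (φ : K →+* K') (g * w) ≠ 0 := (map_ne_zero _).2 (mul_ne_zero g0 w0)
  refine ⟨f * _, mul_ne_zero f0 x0, fun P => ?_⟩
  rw [dv_mul f0 x0, ← add_assoc, ← hf, Pi.add_apply, dv_apply, Pi.zero_apply]
  rcases hK'.ok φ P with t | ⟨Q, l⟩
  · rw [t.ord, Int.cast_zero, add_zero]
    exact Cb.kap_nonneg hK' fun i => t _
  · have a := Cb.hur hK hK' c l hy
    have b := hw Q
    have e : (1 : ℝ) ≤ P.ord ((φ : K →+* K') Q.t) := by exact_mod_cast l.e_pos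
    rw [hg, add_assoc, ← dv_mul g0 w0, Pi.add_apply, dv_apply, Pi.zero_apply] at b
    rw [l.ord, Int.cast_mul]
    nlinarith

theorem ind_cons {L : IntermediateField ℂ K} {y : Fin n → L} (hy : AlgebraicIndependent ℂ y) {u : K}
    (hu : Transcendental L u) :
    AlgebraicIndependent ℂ (Fin.cons u fun j => inc L (y j) : Fin (n + 1) → K) := by
  have a := hy.sumElim_comp (y := fun _ : Unit => u) (algebraicIndependent_unique_type_iff.2 hu)
  have b := a.comp (Fin.cons (.inl ()) Sum.inr : Fin (n + 1) → Unit ⊕ Fin n) (by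
    rw [Fin.cons_injective_iff]
    exact ⟨by simp, Sum.inr_injective⟩)
  have e : (Fin.cons u fun j => inc L (y j) : Fin (n + 1) → K) =
      Sum.elim (fun _ : Unit => u) (algebraMap L K ∘ y) ∘
        (Fin.cons (.inl ()) Sum.inr : Fin (n + 1) → Unit ⊕ Fin n) :=
    funext fun i => Fin.cases rfl (fun _ => rfl) i
  exact e ▸ b

/-- the form `ω ∧ du` -/
theorem NU.wedge {L : IntermediateField ℂ K} (h : NU L n) (hL : FF L n) (hK : FF K (n + 1)) {u : K}
    (hu : Transcendental L u) : Eff (cn K (n + 1) + (2 : ℝ) • pld u) := by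
  obtain ⟨w, w0, hw⟩ := h
  obtain ⟨y, hy, -⟩ := id hL
  have i := ind_cons hy hu
  obtain ⟨g, g0, hg⟩ := Cb.cn_kap hL hy
  obtain ⟨f, f0, hf⟩ := Cb.kap_cn hK i
  have x0 : inc L (g * w) ≠ 0 := (map_ne_zero _).2 (mul_ne_zero g0 w0)
  refine Sec.eff (f := f * _) (Or.inr fun P => ?_) (mul_ne_zero f0 x0)
  have p0 := pld_nonneg u P
  have p1 : -(P.ord u : ℝ) ≤ pld u P := pld_apply u P ▸ le_max_right _ _
  rw [dv_mul f0 x0, ← add_assoc, add_right_comm (dv f), add_comm (dv f), ← hf]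
  simp only [Pi.add_apply, dv_apply, Pi.zero_apply, Pi.smul_apply, smul_eq_mul] at p0 ⊢
  rcases hK.ok_sub L P with t | ⟨Q, l⟩
  · rw [t.ord, Int.cast_zero, add_zero]
    by_cases m : u ∈ P.ring
    · have := Cb.kap_nonneg (P := P) hK (y := Fin.cons u fun j => inc L (y j)) fun i =>
        Fin.cases m (fun j => t _) i
      linarith
    · have a := Cb.sum_le_kap hK i P
      have b : P.ord u ≤ -1 := by
        by_contra c
        exact m (Cb.mem_ord (by omega))
      have b' : (P.ord u : ℝ) ≤ -1 := by exact_mod_cast b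
      simp only [Fin.sum_univ_succ, Fin.cons_zero, Fin.cons_succ, t.ord, Int.cast_zero,
        Finset.sum_const_zero] at a
      linarith
  · have a := Cb.fib_cons hL hK (fun _ => rfl) l i
    have b := hw Q
    have e : (1 : ℝ) ≤ P.ord (inc L Q.t) := by exact_mod_cast l.e_pos
    rw [hg, add_assoc, ← dv_mul g0 w0, Pi.add_apply, dv_apply, Pi.zero_apply] at b
    rw [l.ord, Int.cast_mul]
    nlinarith

variable {L : IntermediateField ℂ K} {P : Pl K}

/-- the map of the base to the residue field of a horizontal place -/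
def rh (h : Hor L P) : L →ₐ[ℂ] P.κ :=
  { Gx.hr (φ := inc L) (P := P) fun a => h a a.2 with
    commutes' := fun c => (Gx.hr_apply _ _).trans (Gx.rd_cst P c) }

theorem rh_apply (h : Hor L P) (a : L) : rh h a = P.rd a := Gx.hr_apply _ _

theorem im_eq (h : Hor L P) : P.im L = (rh h).fieldRange :=
  le_antisymm (IntermediateField.adjoin_le_iff.2 (by
    rintro _ ⟨b, hb, rfl⟩
    exact ⟨⟨b, hb⟩, rh_apply h _⟩)) (by
    rintro _ ⟨b, rfl⟩
    exact IntermediateField.subset_adjoin _ _ ⟨b, b.2, (rh_apply h b).symm⟩)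

theorem fin_im (h : Hor L P) (hL : FF L n) (hP : FF P.κ n) : FiniteDimensional (P.im L) P.κ := by
  obtain ⟨y, hy, -⟩ := hL
  have a := hP.fin (hy.map' (f := rh h) (rh h).injective)
  have le : IntermediateField.adjoin ℂ (range (rh h ∘ y)) ≤ P.im L :=
    IntermediateField.adjoin_le_iff.2 (by
      rintro _ ⟨i, rfl⟩
      exact IntermediateField.subset_adjoin _ _ ⟨y i, (y i).2, (rh_apply h _).symm⟩)
  letI := (IntermediateField.inclusion le).toAlgebra
  haveI : IsScalarTower (IntermediateField.adjoin ℂ (range (rh h ∘ y))) (P.im L) P.κ :=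
    IsScalarTower.of_algebraMap_eq fun _ => rfl
  exact Module.Finite.right (IntermediateField.adjoin ℂ (range (rh h ∘ y))) _ _

theorem one_le_deg (h : Hor L P) (hL : FF L n) (hP : FF P.κ n) :
    1 ≤ Module.finrank (P.im L) P.κ :=
  have := fin_im h hL hP
  Module.finrank_pos

theorem equiv_of_deg (h : Hor L P) (e : Module.finrank (P.im L) P.κ = 1) :
    Nonempty (P.κ ≃ₐ[ℂ] L) := by
  refine ⟨(AlgEquiv.ofBijective (rh h) ⟨(rh h).injective, fun x => ?_⟩).symm⟩
  have a : x ∈ (⊥ : Subalgebra (P.im L) P.κ) := by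
    rw [Subalgebra.bot_eq_top_of_finrank_eq_one e]
    trivial
  obtain ⟨b, rfl⟩ := a
  have := b.2
  exact (im_eq h).le this

end Vale.Agent.P287D.Lc
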