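import Vale.Agent.P287D.Lc.St
import Vale.Agent.P287D.Lc.Pg
import Vale.Agent.P287D.In.Int
import Vale.Agent.P287D.D2.Rul
import Vale.Agent.P287D.Ru.St
import Vale.Agent.P287D.Pg.Uni

/-!
# P287D, row LOC: the section
-/

set_option linter.all false

open Set Filter Topology

noncomputable section

namespace Vale.Agent.P287D.Lc

open In

variable {W : Type} [Field W] [Algebra ℂ W] {Z Z' a b c Λ : BD W}

theorem two {p : BD W → Prop} (h : p a) (h' : p b) : ∀ i, p (![a, b] i) :=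
  Fin.forall_fin_two.2 ⟨h, h'⟩

theorem mem_of {S : Submodule ℝ (BD W)} (h : a ∈ S) (e : b = a) : b ∈ S := e ▸ h

theorem i3_smul (r : ℝ) (Z a b : BD W) : I3 (r • Z) a b = r * I3 Z a b := cons_smul r Z ![a, b]

theorem small {α : Type} {T : Set α} (hT : T.Finite) (u v : α → ℝ) (h : ∀ P ∈ T, 0 < v P) :
    ∃ η : ℝ, 0 < η ∧ η ≤ 1 ∧ ∀ P ∈ T, η * u P ≤ v P := by
  have k : ∀ᶠ η in 𝓝[>] (0 : ℝ), ∀ P ∈ T, η * u P ≤ v P :=
    (eventually_all_finite hT).2 fun P hP => by
      have : Tendsto (fun η : ℝ => η * u P) (𝓝 0) (𝓝 (0 * u P)) := tendsto_id.mul_const _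
      rw [zero_mul] at this
      exact (this.eventually_le_const (h P hP)).filter_mono nhdsWithin_le_nhds
  obtain ⟨η, x, y⟩ := (k.and (Ioc_mem_nhdsGT one_pos)).exists
  exact ⟨η, y.1, y.2, x⟩

theorem pb_pld {K : Type} [Field K] [Algebra ℂ K] {φ : K →+* W} (ok : Ok φ) (f : K) :
    pb φ (pld f) = pld (φ f) := by
  classical
  rw [← mx_pld, ← mx_pld, ok.pb_mx, Pb.im_eq]
  simp

theorem big_ruled {L : IntermediateField ℂ W} (ok : Ok (inc L)) {t : W}
    (e : IntermediateField.adjoin L {t} = ⊤) {h : BD L} (hs : Smp h) (hb : Big h) :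
    Big (pb (inc L) h + pld t) := by
  refine (big_iff_fld ((ok.smp hs).add (smp_pld t)).eff).2 (eq_top_iff.2 fun x _ => ?_)
  have k : x ∈ (IntermediateField.adjoin L {t}).toSubfield := e ▸ trivial
  rw [IntermediateField.adjoin_toSubfield] at k
  refine (Subfield.closure_le (t := (fld _).toSubfield)).2 ?_ k
  rintro _ (⟨u, rfl⟩ | rfl)
  · obtain ⟨ε, x, y⟩ := hb.exists_eff (pld_car u)
    exact fld_le_add (smp_pld t).eff
      (InF.mem ⟨ε, x, by simpa [pb_sub, pb_smul, pb_pld ok] using ok.eff y⟩)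
  · rw [add_comm]
    exact fld_le_add (ok.smp hs).eff (InF.mem ⟨1, one_pos, by simpa using Eff.zero⟩)

section three

variable (H : Hy) (hW : FF W 3)
include H hW

theorem i3_add (h : IsB 2 Z) (h' : IsB 2 Z') (ha : a ∈ Car W) (hb : b ∈ Car W) :
    I3 (Z + Z') a b = I3 Z a b + I3 Z' a b := H.cons_add hW h h' (two ha hb)

theorem i3_sub (h : IsB 2 Z) (h' : IsB 2 Z') (ha : a ∈ Car W) (hb : b ∈ Car W) :
    I3 (Z - Z') a b = I3 Z a b - I3 Z' a b := H.cons_sub hW h h' (two ha hb)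

theorem i3_congr (h : IsB 2 Z) (e : Z' - Z ∈ Prn W) (ha : a ∈ Car W) (hb : b ∈ Car W) :
    I3 Z' a b = I3 Z a b := H.cons_congr hW h e (two ha hb)

theorem i3_nn (h : IsB 2 Z) (e : Psef Z) (ha : Nef a) (hb : Nef b) : 0 ≤ I3 Z a b :=
  H.cons_nn hW h e (two ha hb)

theorem i3_tr (hΛ : Smp Λ) (e : ∀ P, On 2 Λ P → 0 ≤ Z P) (ha : Nef a) (hb : Nef b) (da : Dsc Λ a)
    (db : Dsc Λ b) : 0 ≤ I3 Z a b :=
  finsum_nonneg fun P => by
    change 0 ≤ Z P * cf P ![a, b]
    by_cases o : On 2 Λ P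
    · exact mul_nonneg (e P o) (H.cf_nef hW P (two ha hb))
    · rw [H.exc hW o hΛ (two da db), mul_zero]

theorem i3_swap (ha : a ∈ Car W) (hb : b ∈ Car W) (hc : c ∈ Car W) : I3 a b c = I3 b a c :=
  H.swap (n := 1) hW (c := ![c]) ha hb (Fin.forall_fin_one.2 hc)

theorem i3_swap' (Z : BD W) (a b : BD W) : I3 Z a b = I3 Z b a :=
  finsum_congr fun P => by
    change Z P * cf P ![a, b] = Z P * cf P ![b, a]
    rw [← H.cf_perm hW P (Equiv.swap 0 1)]
    congr 2
    funext i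
    fin_cases i <;> rfl

theorem i3_pld (t : W) (hb : b ∈ Car W) : I3 (pld t) (pld t) b = 0 := by
  classical
  rw [← i3_congr H hW (Z' := pld t⁻¹) (H.isb 2 W hW _ (pld_car t))
    (by rw [pld_inv, add_sub_cancel_left]; exact dv_mem_Prn t) (pld_car t) hb]
  refine finsum_eq_zero_of_forall_eq_zero fun P => ?_
  change pld t⁻¹ P * cf P ![pld t, b] = 0
  by_cases k : t⁻¹ ∈ P.ring
  · rw [pld_eq_zero.2 k, zero_mul]
  have m : t ∈ P.ring := (P.ring.mem_or_inv_mem t).resolve_right k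
  have z : P.mz {1, t} = 0 := by
    have := pld_eq_zero.2 m
    rw [← mx_pld, mx_apply] at this
    exact_mod_cast this
  have o : P.rd t = 0 := (Cb.rd_eq_zero m).2 (by_contra fun x => k (Cb.inv_mem_of x))
  have o' : P.rd 1 = 1 := by simpa using Cb.rd_const (P := P) 1
  have e : res P (pld t) = 0 := by
    rw [← mx_pld, H.sys 2 W hW, ← pld_const (K := P.κ) 0, ← mx_pld]
    congr 1
    ext x
    simp [Pl.rs, z, o, o', eq_comm]
  have : cf P ![pld t, b] = ∑ᶠ Q : Pl P.κ, res P (pld t) Q * cf Q ![res P b] := by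
    rw [cf, I_succ]
    refine finsum_congr fun Q => ?_
    congr 2
    funext i
    fin_cases i
    rfl
  simp [this, e]

/-- a base class is positive against any class on which a big class is positive -/
theorem i3_base {X μ h : BD W} {t : W} (sX : Smp X) (bX : Big X) (nμ : Nef μ) (sh : Smp h)
    (bh : Big (h + pld t)) (m : 0 < I3 X X μ) : 0 < I3 h X μ := by
  by_contra k
  have B := H.isb 2 W hW
  have cp := pld_car t
  obtain ⟨ε, e0, e1⟩ := bh.exists_eff sX.car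
  obtain ⟨δ, d0, d1⟩ := bX.exists_eff cp
  have a1 := i3_nn H hW (B _ (sub_mem sX.car (Submodule.smul_mem _ _ cp))) d1.psef sh.nef nμ
  have cc := sub_mem (add_mem sh.car cp) (Submodule.smul_mem _ ε sX.car)
  have a2 := i3_nn H hW (B _ cc) e1.psef (smp_pld t).nef nμ
  have a3 := i3_nn H hW (B _ cc) e1.psef sX.nef nμ
  rw [i3_sub H hW (B _ sX.car) (B _ (Submodule.smul_mem _ _ cp)) sh.car nμ.car, i3_smul,
    i3_swap H hW sX.car sh.car nμ.car, i3_swap H hW cp sh.car nμ.car] at a1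
  rw [i3_sub H hW (B _ (add_mem sh.car cp)) (B _ (Submodule.smul_mem _ _ sX.car)) cp nμ.car,
    i3_add H hW (B _ sh.car) (B _ cp) cp nμ.car, i3_smul, i3_pld H hW t nμ.car,
    i3_swap H hW sX.car cp nμ.car] at a2
  rw [i3_sub H hW (B _ (add_mem sh.car cp)) (B _ (Submodule.smul_mem _ _ sX.car)) sX.car nμ.car,
    i3_add H hW (B _ sh.car) (B _ cp) sX.car nμ.car, i3_smul] at a3
  have b1 : I3 h (pld t) μ ≤ 0 := by nlinarith
  have b2 : I3 (pld t) X μ ≤ 0 := by nlinarith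
  nlinarith

/-- the test class -/
theorem exists_test (fl : FLD) {X X₀ : BD W} (sX : Smp X) (bX : Big X) (s0 : Smp X₀)
    (d0 : Dsc X X₀) (dm : dim X₀ ≤ 1) :
    ∃ μ, Smp μ ∧ Dsc X μ ∧ I3 X₀ X μ = 0 ∧ 0 < I3 X X μ := by
  have B := H.isb 2 W hW
  by_cases k : 0 < I3 X₀ X X
  · refine ⟨X₀, s0, d0, le_antisymm ?_ (i3_nn H hW (B _ s0.car) s0.psef sX.nef s0.nef), ?_⟩
    · have := (fl.nd 3 W hW X₀ X 2 s0 sX.nef bX (by omega)).not.2 (by omega)
      rw [i3_swap' H hW]
      refine not_lt.1 fun x => this (x.trans_eq (congrArg (I 3 W) (funext fun i => ?_)))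
      fin_cases i <;> rfl
    · rwa [i3_swap' H hW, i3_swap H hW sX.car s0.car sX.car]
  · refine ⟨X, sX, .refl sX, le_antisymm (not_lt.1 k)
      (i3_nn H hW (B _ s0.car) s0.psef sX.nef sX.nef), ?_⟩
    refine (H.vol_pos hW sX.nef bX).trans_eq (congrArg (I 3 W) (funext fun i => ?_))
    fin_cases i <;> rfl

end three

theorem sec_of (H : Hy) (md : MOD) (hR : RES) (fl : FLD) (uni : UNI) (rul : RUL) (dgr : DGR) :
    SEC := by
  intro W _ _ hW X Γ X₀ L sX bX dΓ bd s0 d0 dm am hL pL r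
  have nu := NU.of_pg pL
  obtain ⟨t, -, et⟩ := id r
  have ok : Ok (inc L) := hW.ok_sub L
  have B := H.isb 2 W hW
  have Bc : IsB 2 (cn W 3) := (md.isb 2 W hW).2.1
  obtain ⟨μ, sμ, dμ, m0, m1⟩ := exists_test H hW fl sX bX s0 d0 dm
  have cX := sX.car
  have cμ := sμ.car
  have sm : ∀ (r : ℝ) {β : BD W}, β ∈ Car W → r • β ∈ Car W := fun r _ h => Submodule.smul_mem _ r h
  have k1 : I3 (cn W 3) X μ < 0 := by
    obtain ⟨ε, e0, e1⟩ := am.2
    have a1 := i3_nn H hW (B _ e1.car) e1.psef sX.nef sμ.nef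
    have a2 := i3_tr H hW (Z := Γ - cn W 3) sX (fun P o => by
      have := bd P o
      simp only [dsc, Pi.sub_apply] at this ⊢
      linarith) sX.nef sμ.nef (.refl sX) dμ
    rw [i3_sub H hW (B _ am.car) (B _ (sm _ cX)) cX cμ, i3_sub H hW (B _ s0.car) (B _ dΓ.car) cX cμ,
      i3_smul] at a1
    rw [i3_sub H hW (B _ dΓ.car) Bc cX cμ] at a2
    nlinarith
  have vert : fld X₀ ≤ L := fun u hu => by_contra fun c => by
    obtain ⟨ε, e0, e1⟩ := (mem_fld s0.eff).1 hu
    have cp := pld_car u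
    have a1 := i3_nn H hW (IsB.add Bc (B _ (sm _ cp)))
      (nu.wedge hL hW fun x => c (r.cld u x)).psef sX.nef sμ.nef
    have a2 := i3_nn H hW (B _ (sub_mem s0.car (sm _ cp))) e1.psef sX.nef sμ.nef
    rw [i3_add H hW Bc (B _ (sm _ cp)) cX cμ, i3_smul] at a1
    rw [i3_sub H hW (B _ s0.car) (B _ (sm _ cp)) cX cμ, i3_smul] at a2
    nlinarith
  obtain ⟨N, sN, pN⟩ : ∃ N : BD L, Smp N ∧ X₀ - pb (inc L) N ∈ Prn W := by
    obtain ⟨N, x, -, y⟩ := fl.down 3 W hW X₀ s0
    refine ⟨_, (hL.ok (IntermediateField.inclusion vert)).smp x, ?_⟩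
    rw [← ok.pb_comp]
    exact y
  have hor : ∀ P, Hor L P → dsc 3 Γ P ≤ 0 := fun P hP => by
    by_cases o : On 2 X P
    · exact bd P o
    · by_contra c
      exact (nu.map hL (H.rsd 2 W hW P) (rh hP)).ne_bot
        (uni.pg hR hW sX bX dΓ bd o (by linarith [not_le.1 c])).1
  have bA : Big (X₀ - Γ) := am.big_iff.1 bX
  have ds : ∀ (G : BD W) P, dsc 3 (Γ + G) P = dsc 3 Γ P - G P := fun G P => by
    simp only [dsc, Pi.sub_apply, Pi.add_apply]
    ring
  obtain ⟨σ, hσ, dσ⟩ : ∃ σ, Hor L σ ∧ dsc 3 Γ σ ≤ -1 := by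
    by_contra c
    simp only [not_exists, not_and, not_le] at c
    obtain ⟨s, -, bs⟩ := exists_big hL
    have sh := ok.smp (smp_mx s)
    have mh := i3_base H hW sX bX sμ.nef sh (big_ruled ok et (smp_mx s) bs) m1
    obtain ⟨ε, e0, G, hG⟩ := bA.exists_eff sh.car
    have fin := (dgr 2 W L (Γ + G) (N - ε • mx s) hW hL r.cld r.con (by
      have := add_mem hG.2 pN
      rw [pb_sub, pb_smul]
      refine mem_of this ?_
      module) fun P hP => by
        rw [ds]
        linarith [hor P hP, show 0 ≤ G P from hG.1 P]).1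
    obtain ⟨η, η0, η1, hη⟩ := small fin G (fun P => 1 + dsc 3 Γ P) fun P hP => by
      linarith [c P hP.1]
    have g0 : ∀ P, 0 ≤ (η • G) P := fun P => mul_nonneg η0.le (hG.1 P)
    obtain ⟨Z, zp, zg⟩ := rul 2 W L (Γ + η • G) ((1 - η) • (X₀ - Γ)) (N - (η * ε) • mx s)
      ⟨hW, hL, r.cld, r.con, am.smp.smul (by linarith), by
        have := add_mem (Submodule.smul_mem _ η hG.2) pN
        rw [pb_sub, pb_smul]
        refine mem_of this ?_
        module, fun P hP => by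
        rw [ds]
        linarith [hor P hP, g0 P], fun P hP => by
        rw [ds]
        by_cases z : dsc 3 (Γ + G) P = 0
        · rw [ds] at z
          have : G P = 0 := le_antisymm (by linarith [hor P hP]) (hG.1 P)
          simp only [Pi.smul_apply, this, smul_zero]
          linarith [c P hP]
        · have := hη P ⟨hP, z⟩
          simp only [Pi.smul_apply, smul_eq_mul]
          linarith⟩
    obtain ⟨w, w0, hw⟩ := nu
    have cN : N - (η * ε) • mx s ∈ Car L := sub_mem sN.car (Submodule.smul_mem _ _ (mx_mem_Car s))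
    have p : Z + (cn L 2 + dv w) - (N - (η * ε) • mx s) ∈ Prn L := by
      have := add_mem zp (dv_mem_Prn w)
      refine mem_of this ?_
      module
    have a1 := i3_tr H hW (Z := pb (inc L) (Z + (cn L 2 + dv w))) sX (fun P o => by
      rcases ok P with x | ⟨Q, l⟩
      · rw [x.pb]
      · have u := zg P Q l
        have e : (1 : ℝ) ≤ P.ord (inc L Q.t) := by exact_mod_cast l.e_pos
        have v : 0 ≤ (cn L 2 + dv w) Q := hw Q
        rw [ds] at u
        rw [l.pb, Pi.add_apply, mul_add]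
        nlinarith [bd P o, g0 P]) sX.nef sμ.nef (.refl sX) dμ
    rw [i3_congr H hW (B _ (ok.car cN)) (by simpa only [pb_sub (inc L) (Z + _)] using ok.prn p) cX cμ, pb_sub, pb_smul,
      i3_sub H hW (B _ (ok.car sN.car)) (B _ (sm _ sh.car)) cX cμ, i3_smul,
      ← i3_congr H hW (B _ (ok.car sN.car)) pN cX cμ, m0] at a1
    nlinarith [mul_pos (mul_pos η0 e0) mh]
  obtain ⟨ε, e0, G, hG⟩ := bA.exists_eff (pld_car σ.t⁻¹)
  have g0 : ∀ P, 0 ≤ (G + ε • pld σ.t⁻¹) P := fun P =>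
    add_nonneg (hG.1 P) (mul_nonneg e0.le (pld_nonneg _ P))
  have g1 : 0 < (G + ε • pld σ.t⁻¹) σ := add_pos_of_nonneg_of_pos (hG.1 σ) (mul_pos e0 (by
    simp [pld_apply, σ.ord_t]))
  have u := (dgr 2 W L (Γ + (G + ε • pld σ.t⁻¹)) N hW hL r.cld r.con (by
    have := add_mem hG.2 pN
    refine mem_of this ?_
    module) fun P hP => by
      rw [ds]
      linarith [hor P hP, g0 P]).2 {σ} (by simpa using hσ)
  rw [Finset.sum_singleton, ds] at u
  have d1 := one_le_deg hσ hL (H.rsd 2 W hW σ)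
  have d2 : Module.finrank (σ.im L) σ.κ = 1 := by
    by_contra x
    have : (2 : ℝ) ≤ Module.finrank (σ.im L) σ.κ := by exact_mod_cast (by omega : 2 ≤ _)
    nlinarith
  rw [d2] at u
  exact ⟨σ, equiv_of_deg hσ d2, by push_cast at u; linarith, dσ⟩

end Vale.Agent.P287D.Lc
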