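import Vale.Agent.P287D.Sk
import Vale.Agent.P287D.Ad.Df

/-!
# P287D, row LOC: centres of dimension at most one (statements and glue)
-/

set_option linter.unusedVariables false

open Set

noncomputable section

namespace Vale.Agent.P287D.Lc

variable {W : Type} [Field W] [Algebra ℂ W]

/-- a klt threefold pair `Γ` on `V X`, anti-ample over `V X₀` of dimension at most one, with the
prime divisor `τ` of coefficient `> 1 / 2` in the boundary -/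
structure Out (τ : Pl W) (X Γ X₀ : BD W) : Prop where
  smp : Smp X
  big : Big X
  des : Dsc X Γ
  bdy : Bdy 2 X Γ
  klt : Klt 3 Γ
  on : On 2 X τ
  half : dsc 3 Γ τ < -1 / 2
  smp0 : Smp X₀
  des0 : Dsc X X₀
  dim : dim X₀ ≤ 1
  amp : AmpOn X (X₀ - Γ)

/-- **SEC**: a threefold pair, anti-ample over a base of dimension at most one and ruled over a
surface with `p_g > 0`, has a section of coefficient in `[1, 2)` -/
def SEC : Prop := ∀ (W : Type) [Field W] [Algebra ℂ W], FF W 3 →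
  ∀ (X Γ X₀ : BD W) (L : IntermediateField ℂ W), Smp X → Big X → Dsc X Γ → Bdy 2 X Γ → Smp X₀ →
    Dsc X X₀ → dim X₀ ≤ 1 → AmpOn X (X₀ - Γ) → FF L 2 → pg L 2 ≠ 0 → Ruled L →
    ∃ σ : Pl W, Nonempty (σ.κ ≃ₐ[ℂ] L) ∧ -2 < dsc 3 Γ σ ∧ dsc 3 Γ σ ≤ -1

/-- **NUC**: a surface pair with an effective boundary which is anti-ample over a base of dimension
at most one has `p_g = 0` -/
def NUC : Prop := ∀ (L : Type) [Field L] [Algebra ℂ L], FF L 2 → ∀ X Γ X₀ : BD L, Smp X → Big X →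
  Dsc X Γ → Bdy 1 X Γ → Smp X₀ → Dsc X X₀ → ¬ Big X₀ → AmpOn X (X₀ - Γ) → pg L 2 = 0

/-- **INTG**: the different of a prime divisor of a terminal variety is integral -/
def INTG : Prop := ∀ (K : Type) [Field K] [Algebra ℂ K], FF K 4 → ∀ (Y G b : BD K) (E : Pl K)
  (σ : Pl E.κ), Term 3 Y G → On 3 Y E → Hull 3 Y E.δ b → On 2 (res E Y) σ →
    ∃ z : ℤ, dsc 3 (adj 3 E (G + b)) σ = z

/-- **OFF**: the section is contracted on `V Y` -/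
def OFF : Prop := ∀ (K : Type) [Field K] [Algebra ℂ K], FF K 4 → ∀ (Y G b X₀ : BD K) (E : Pl K)
  (σ : Pl E.κ), Term 3 Y G → On 3 Y E → Hull 3 Y E.δ b → Smp X₀ → Dsc Y X₀ → cd X₀ E ≤ 1 →
    AmpOn Y (X₀ - (G + b)) → pg σ.κ 2 ≠ 0 → dsc 3 (adj 3 E (G + b)) σ = -1 → ¬ On 2 (res E Y) σ

/-- **SIG**: the section -/
def SIG : Prop := ∀ (K : Type) [Field K] [Algebra ℂ K], FF K 4 → ∀ (Y G Λ b : BD K) (E : Pl K)
  (L : IntermediateField ℂ E.κ), Xtr 3 Y G Λ E → cd Λ E ≤ 1 → Hull 3 Y E.δ b → FF L 2 →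
    (∀ σ : Pl E.κ, Nonempty (σ.κ ≃ₐ[ℂ] L) → pg σ.κ 2 ≠ 0) → pg L 2 ≠ 0 → Ruled L →
    ∃ σ : Pl E.κ, Nonempty (σ.κ ≃ₐ[ℂ] L) ∧ ¬ On 2 (res E Y) σ ∧ -2 < dsc 3 (adj 3 E (G + b)) σ

/-- **TRK**: tracking the section along the program with scaling of `E` -/
def TRK : Prop := ∀ (K : Type) [Field K] [Algebra ℂ K], FF K 4 → ∀ (Y G b : BD K) (E : Pl K)
  (σ : Pl E.κ), Term 3 Y G → QF 3 Y → On 3 Y E → Hull 3 Y E.δ b → pg σ.κ 2 ≠ 0 →
    ¬ On 2 (res E Y) σ → -2 < dsc 3 (adj 3 E (G + b)) σ →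
    ∃ (P : Pl K) (τ : Pl P.κ) (X Γ X₀ : BD P.κ), Nonempty (τ.κ ≃ₐ[ℂ] σ.κ) ∧ Out τ X Γ X₀

/-- **ENDS**: the degree is bounded -/
def ENDS : Prop := ∃ d₀ : ℕ, ∀ d, d₀ ≤ d → ∀ (W : Type) [Field W] [Algebra ℂ W], FF W 3 →
  ∀ (τ : Pl W) (X Γ X₀ : BD W), Out τ X Γ X₀ → ∀ H f, ¬ IsS d τ.κ H f

theorem _root_.Vale.Agent.P287D.IsS.pg_ne (md : MOD) {d : ℕ} {H : BD W} {f : W}
    (h : IsS d W H f) : pg W 2 ≠ 0 := by
  have := md.fin 1 W h.ff _ (md.isb 1 W h.ff).2.1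
  have m : f ∈ H0 (cn W 2) := Submodule.subset_span (Or.inr fun P => by
    by_cases c : On 1 H P
    · have := h.on P c
      simp only [Pi.add_apply, Pi.zero_apply] at this ⊢
      linarith
    · have := h.exc P c
      simp only [Pi.add_apply, Pi.zero_apply] at this ⊢
      linarith)
  have : Nontrivial (H0 (cn W 2)) := ⟨⟨f, m⟩, 0, fun e => h.ne (congrArg Subtype.val e)⟩
  exact Module.finrank_pos.ne'

theorem loc_of (md : MOD) (ffs : FFS) (sig : SIG) (trk : TRK) (ends : ENDS) : LOC := by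
  obtain ⟨d₀, ends⟩ := ends
  refine ⟨d₀, fun d hd S hS K _ _ hK _ Y G Λ Γ E x _ _ c ⟨L, hL, r⟩ => ?_⟩
  obtain ⟨-, b, hb, -⟩ := x.anti
  have p : ∀ (M : Type) [Field M] [Algebra ℂ M], S M → pg M 2 ≠ 0 := fun M _ _ h =>
    let ⟨_, _, i⟩ := hS.isS M h
    i.pg_ne md
  obtain ⟨H, f, i⟩ := hS.isS L hL
  obtain ⟨σ, ⟨e⟩, o, a⟩ := sig K hK Y G Λ b E L x c hb i.ff
    (fun σ ⟨e⟩ => p _ (hS.iso _ _ e.symm hL)) (p _ hL) r
  have s := hS.iso _ _ e.symm hL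
  obtain ⟨P, τ, X, Γ', X₀, ⟨e'⟩, out⟩ := trk K hK Y G b E σ x.term x.qf ((x.on E).2 (.inr rfl)) hb
    (p _ s) o a
  obtain ⟨H', f', i'⟩ := hS.isS _ (hS.iso _ _ e'.symm s)
  exact ends d hd P.κ (ffs.rsd 3 K hK P) τ X Γ' X₀ out H' f' i'

end Vale.Agent.P287D.Lc
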