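import Vale.Agent.P287D.Lc.St
import Vale.Agent.P287D.Ea.Cd

/-!
# P287D, row LOC: the different of a prime divisor of a terminal variety is integral
-/

open Set

noncomputable section

namespace Vale.Agent.P287D.Lc

open In

variable {n : ℕ} {K : Type} [Field K] [Algebra ℂ K] {Y G Γ : BD K} {E : Pl K}

/-- the adjoint of a pair with an integral boundary, in codimension two -/
theorem adj_int (h : Hy) (md : MOD) (hF : FLD) (hT : Mm.TRM) (hK : FF K (n + 2))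
    (t : Term (n + 1) Y G) (d : Dsc Y Γ) (i : ∀ Q, On (n + 1) Y Q → ∃ z : ℤ, Γ Q = z)
    (e : ∃ z : ℤ, Γ E = z) (σ : Pl E.κ) (c : n ≤ cd (res E Y) σ) :
    ∃ z : ℤ, dsc (n + 1) (adj (n + 1) E Γ) σ = z := by
  obtain ⟨R, -, -, c1, c2, k⟩ := a2 (n + 1) K hK E σ {Γ} Y 0 (finite_singleton Γ)
    (singleton_subset_iff.2 d.car) t.smp.car
  obtain ⟨z, hz⟩ := hT n K hK Y G Γ R t d i (Ea.cd_fc h hF n hK t.smp ⟨c1, c2⟩ c)
  obtain ⟨w, hw⟩ := e
  obtain ⟨a, ha⟩ := (md.isb _ K hK).2.2 R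
  obtain ⟨b, hb⟩ := (md.isb _ K hK).2.2 E
  have q := k Γ rfl
  refine ⟨a - z - (b - w + 1) * R.ord E.t, ?_⟩
  simp only [dsc, Pi.sub_apply] at q ⊢
  push_cast
  rw [← hz, ← hw, ← ha, ← hb]
  linarith

theorem intg_of (h : Hy) (md : MOD) (hF : FLD) (hT : Mm.TRM) : INTG := by
  intro K _ _ hK Y G b E σ t o u s
  have i : ∀ Q, On 3 Y Q → ∃ z : ℤ, (G + b) Q = z := fun Q hQ => by
    obtain ⟨a, ha⟩ := (md.isb _ K hK).2.2 Q
    rw [Pi.add_apply, t.hull.2 Q hQ, u.2 Q hQ, ha]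
    by_cases c : Q = E
    · exact ⟨a + 1, by rw [c, Pl.δ_self]; simp⟩
    · exact ⟨a, by rw [Pl.δ_ne c]; simp⟩
  exact adj_int h md hF hT hK t (t.hull.1.add u.1) i (i E o) σ
    ((hF.cen 2 _ (h.rsd _ K hK E) _ σ σ (h.res_smp hK E t.smp)).1.1 s).ge

end Vale.Agent.P287D.Lc
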