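import Vale.Agent.P287D.Lc.Sec
import Vale.Agent.P287D.Oe.St
import Vale.Agent.P287D.Sf.Row
import Vale.Agent.P287D.Sf.Nu
import Vale.Agent.P287D.Ad.All
import Vale.Agent.P287D.Va.Nd

/-!
# P287D, row LOC: the section is contracted
-/

set_option linter.all false

open Set

noncomputable section

namespace Vale.Agent.P287D.Lc

variable {K : Type} [Field K] [Algebra ℂ K] {n : ℕ} {X Γ X₀ : BD K} {P : Pl K}

theorem nuc : NUC := fun L _ _ hL X Γ X₀ sX bX dΓ bd s0 d0 nb am => by_contra fun h =>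
  (Sf.rows hL).nu_bdy (c := 1) (Sf.eff_of_pg h).psef sX.nef bX dΓ.car bd s0.nef d0 (by
    refine Eq.trans (congrArg (I 2 L) (funext fun i => ?_)) (le_antisymm
      (not_lt.1 fun k => nb ((big_iff_vol hL s0.nef).2 k)) (In.hy.vol_nonneg hL s0.nef))
    fin_cases i <;> rfl) (by simpa using am.big_iff.1 bX)

/-- a pair with an effective boundary on `V X` which is anti-ample over `V X₀` -/
structure Pk (n : ℕ) (X Γ X₀ : BD K) : Prop where
  smp : Smp X
  big : Big X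
  des : Dsc X Γ
  bdy : Bdy n X Γ
  smp0 : Smp X₀
  des0 : Dsc X X₀
  amp : AmpOn X (X₀ - Γ)

/-- adjunction -/
theorem Pk.adj (a3 : A3) (hK : FF K (n + 2)) (h : Pk (n + 1) X Γ X₀) (o : On (n + 1) X P)
    (e : dsc (n + 2) Γ P = -1) : Pk n (res P X) (adj (n + 1) P Γ) (res P X₀) := by
  have p := (a1 (n + 1) K hK P Γ h.des.car).2.1
  refine ⟨res_smp hK P h.smp, (on_iff_big hK P h.smp.nef).1 o, (res_dsc hK P h.des).congr p,
    a3 n K hK X P h.smp h.big o Γ h.des h.bdy e, res_smp hK P h.smp0, res_dsc hK P h.des0,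
    (res_ampOn hK P h.amp).congr ?_⟩
  rw [res_sub hK P h.smp0.car h.des.car, sub_sub_sub_cancel_left]
  simpa using neg_mem p

theorem Pk.pg (hK : FF K 2) (h : Pk 1 X Γ X₀) (nb : ¬ Big X₀) : pg K 2 = 0 :=
  nuc K hK X Γ X₀ h.smp h.big h.des h.bdy h.smp0 h.des0 nb h.amp

theorem on_dim (hK : FF K (n + 1)) (s : Smp X) (o : On n X P) : n ≤ dim X := by
  by_contra x
  have a := term_le_I hK (In.hy.isb n K hK _ (pld_car P.t⁻¹)) (pld_nonneg _) (b := fun _ => X)
    (fun _ => s.nef) P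
  rw [I_eq_zero_of_dsc hK (Λ := X) (In.cons_mem (pld_car _) fun _ => s.car)
    (Finset.univ.map (Fin.succEmb n)) (by simpa using x) (by
      intro i hi
      obtain ⟨j, -, rfl⟩ := Finset.mem_map.1 hi
      exact .refl s)] at a
  exact (mul_pos (by simp [pld_apply, P.ord_t]) o).not_ge a

/-- a prime with coefficient one and `p_g > 0` has a surface as its centre on the base -/
theorem Pk.on (hK : FF K 3) (h : Pk 2 X Γ X₀) (o : On 2 X P) (e : dsc 3 Γ P = -1)
    (p : P287D.pg P.κ 2 ≠ 0) : On 2 X₀ P := by_contra fun c =>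
  p ((h.adj a3 hK o e).pg (Gm.ff_κ P hK) fun b => c ((on_iff_big hK P h.smp0.nef).2 b))

/-- **VERT**: a prime with coefficient at most one and `p_g > 0` is horizontal, or its centre on
the base is a surface -/
theorem Pk.vert (hK : FF K 3) (h : Pk 2 X Γ X₀) (o : On 2 X P) (e : -1 ≤ dsc 3 Γ P)
    (p : P287D.pg P.κ 2 ≠ 0) (c : ¬ On 2 X₀ P) : Hor (fld X₀) P := by
  refine hor_of_rep h.smp0.eff fun G r => by_contra fun k => c ?_
  have g : 0 < G P := (r.1 P).lt_of_ne' k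
  have x0 : 0 ≤ (1 + dsc 3 Γ P) / G P := div_nonneg (by linarith) g.le
  have dG : Dsc X G := h.des0.congr r.2
  have q : Pk 2 X (Γ + ((1 + dsc 3 Γ P) / G P) • G) ((1 + (1 + dsc 3 Γ P) / G P) • X₀) :=
    ⟨h.smp, h.big, h.des.add (dG.smul _), fun R u => by
      have := h.bdy R u
      have := mul_nonneg x0 (r.1 R)
      simp only [dsc, Pi.sub_apply, Pi.add_apply, Pi.smul_apply, smul_eq_mul] at *
      linarith, h.smp0.smul (by linarith), h.des0.smul _, h.amp.congr (by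
      have := Submodule.smul_mem _ (-((1 + dsc 3 Γ P) / G P)) r.2
      refine mem_of this ?_
      module)⟩
  refine (Pr.on_iff res' hK h.smp0 (h.smp0.ampOn_smul (by linarith))).2 (q.on hK o ?_ p)
  have : dsc 3 (Γ + ((1 + dsc 3 Γ P) / G P) • G) P =
      dsc 3 Γ P - (1 + dsc 3 Γ P) / G P * G P := by
    simp only [dsc, Pi.sub_apply, Pi.add_apply, Pi.smul_apply, smul_eq_mul]
    ring
  rw [this, div_mul_cancel₀ _ k]
  ring

theorem pk_of {Y G b : BD K} {E : Pl K} (hK : FF K (n + 2)) (t : Term (n + 1) Y G)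
    (o : On (n + 1) Y E) (u : Hull (n + 1) Y E.δ b) (s : Smp X₀) (d : Dsc Y X₀)
    (a : AmpOn Y (X₀ - (G + b))) : Pk n (res E Y) (adj (n + 1) E (G + b)) (res E X₀) := by
  have k : ∀ R, On (n + 1) Y R → dsc (n + 2) (G + b) R = -E.δ R := fun R r => by
    simp [dsc, t.hull.2 R r, u.2 R r]
  exact Pk.adj a3 hK ⟨t.smp, t.big, t.hull.1.add u.1, fun R r =>
    (k R r).trans_le (neg_nonpos.2 (E.δ_nonneg R)), s, d, a⟩ o (by rw [k E o, E.δ_self])

theorem off : OFF := fun K _ _ hK Y G b X₀ E σ t o u s d c a p e o' => by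
  have h := Gm.ff_κ E hK
  have q := pk_of hK t o u s d a
  have := on_dim h q.smp0 (q.on h o' e p)
  exact absurd (this.trans c) (by omega)

theorem sig_of (sec : SEC) (intg : INTG) : SIG := by
  intro K _ _ hK Y G Λ b E L x c u hL p pL r
  have o := (x.on E).2 (.inr rfl)
  obtain ⟨c₁, a₁⟩ := x.neg
  obtain ⟨c₂, b', u', a₂⟩ := x.anti
  obtain rfl : b' = b := Pr.hart_eq res' hK x.term.smp x.term.big u'.1 u.1 fun R k => by
    rw [u'.2 R k, u.2 R k]
  have m0 : 0 < |c₁ + c₂| + 1 := by positivity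
  have a : AmpOn Y ((|c₁ + c₂| + 1) • Λ - (G + b')) := by
    have := (a₁.add a₂).add_smp (x.smp.smul (c := |c₁ + c₂| + 1 - (c₁ + c₂))
      (by linarith [le_abs_self (c₁ + c₂)])) (x.des.smul _)
    refine this.congr (mem_of (zero_mem _) ?_)
    module
  have s := x.smp.smul m0.le
  have c' : cd ((|c₁ + c₂| + 1) • Λ) E ≤ 1 := by
    rwa [cd, res_smul hK E _ x.smp.car, dim_smul m0]
  have q := pk_of hK x.term o u s (x.des.smul _) a
  obtain ⟨σ, e, l, l'⟩ := sec E.κ (Gm.ff_κ E hK) _ _ _ L q.smp q.big q.des q.bdy q.smp0 q.des0 c'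
    q.amp hL pL r
  refine ⟨σ, e, fun o' => ?_, l⟩
  obtain ⟨z, hz⟩ := intg K hK Y G b' E σ x.term o u o'
  refine off K hK Y G b' _ E σ x.term o u s (x.des.smul _) c' a (p σ e) ?_ o'
  rw [hz] at l l' ⊢
  have h1 : -2 < z := by exact_mod_cast l
  have h2 : z ≤ -1 := by exact_mod_cast l'
  exact_mod_cast (by omega : z = -1)

theorem ends_of (h : Oe.ENDS) : ENDS :=
  let ⟨d₀, h⟩ := h
  ⟨d₀, fun d hd W _ _ hW τ X Γ X₀ o => h d hd W τ ⟨X, Γ, X₀, hW, o.smp, o.big, o.des, o.bdy, o.klt,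
    o.on, o.half, o.smp0, o.des0, o.dim, o.amp⟩⟩

end Vale.Agent.P287D.Lc
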